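import Vale.Agent.P219.TPH.WindowH

/-! # P219, dimension 2: from lines to the unit tangent bundle -/

open MeasureTheory Set Metric
open scoped ENNReal ContDiff

namespace Vale.Agent.P219.Dim2

open Vale.Agent.P219.TP Vale.Agent.P219.TPH

variable {n : ℕ} (G : Geo n)

/-- The window inequality. -/
theorem lines_window {o : E n} {ρ : ℝ} {q₁ q₂ : E n × E n → ℝ≥0∞}
    {C : ℝ≥0∞} (hb : ∀ x u : E n, ‖u‖ = 1 → q₁ (x, u) ≤ C)
    (hs₁ : ∀ x u : E n, ρ < ‖G.lg o x‖ → q₁ (x, u) = 0)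
    (hs₂ : ∀ x u : E n, ρ < ‖G.lg o x‖ → q₂ (x, u) = 0)
    (hline : ∀ x u : E n, ‖u‖ = 1 →
      ∫⁻ t, q₁ (G.ex x (t • u), G.V t x u) ≤ ∫⁻ t, q₂ (G.ex x (t • u), G.V t x u))
    {T : ℝ} (x u : E n) (hu : ‖u‖ = 1) :
    tpiW G q₁ 0 T (x, u) ≤ tpiW G q₂ 0 T (x, u) + C * ENNReal.ofReal (2 * ρ) *
      ({y | ‖G.lg o y‖ ≤ ρ}.indicator 1 x +
        {y | ‖G.lg o y‖ ≤ ρ}.indicator 1 (G.ex x (T • u))) := by
  have hSc := wh_isClosed_S G o ρ x u
  have hSm : MeasurableSet (wh_S G o ρ x u) := hSc.measurableSet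
  have hz : ∀ q : E n × E n → ℝ≥0∞, (∀ x u : E n, ρ < ‖G.lg o x‖ → q (x, u) = 0) →
      ∀ t ∉ wh_S G o ρ x u, q (G.ex x (t • u), G.V t x u) = 0 := by
    intro q hq t ht
    exact hq _ _ (not_le.1 ht)
  by_cases hcase : (0 : ℝ) ∉ wh_S G o ρ x u ∧ T ∉ wh_S G o ρ x u
  · by_cases hex : ∃ t₀ ∈ Ioo 0 T, t₀ ∈ wh_S G o ρ x u
    · obtain ⟨t₀, ht₀, ht₀S⟩ := hex
      have hsub : wh_S G o ρ x u ⊆ Ioo 0 T := by
        intro t ht
        constructor
        · by_contra h0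
          exact hcase.1 (wh_mem_of_between G ht ht₀S (not_lt.1 h0) ht₀.1.le)
        · by_contra h0
          exact hcase.2 (wh_mem_of_between G ht₀S ht ht₀.2.le (not_lt.1 h0))
      have e : ∀ q : E n × E n → ℝ≥0∞, (∀ x u : E n, ρ < ‖G.lg o x‖ → q (x, u) = 0) →
          tpiW G q 0 T (x, u) = ∫⁻ t, q (G.ex x (t • u), G.V t x u) := by
        intro q hq
        unfold tpiW
        exact wh_lintegral_restrict measurableSet_Ioo hsub (hz q hq)
      rw [e q₁ hs₁, e q₂ hs₂]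
      exact (hline x u hu).trans le_self_add
    · push Not at hex
      have e1 : tpiW G q₁ 0 T (x, u) = 0 := by
        unfold tpiW
        rw [← lintegral_indicator measurableSet_Ioo]
        refine (lintegral_congr fun t => ?_).trans lintegral_zero
        by_cases ht : t ∈ Ioo 0 T
        · rw [indicator_of_mem ht]
          exact hz q₁ hs₁ t (hex t ht)
        · rw [indicator_of_notMem ht]
      rw [e1]
      exact zero_le
  · have hind : (1 : ℝ≥0∞) ≤ {y | ‖G.lg o y‖ ≤ ρ}.indicator 1 x +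
            {y | ‖G.lg o y‖ ≤ ρ}.indicator 1 (G.ex x (T • u)) := by
      by_cases h0 : (0 : ℝ) ∈ wh_S G o ρ x u
      · have h0' : x ∈ {y | ‖G.lg o y‖ ≤ ρ} := by
          have : ‖G.lg o (G.ex x ((0 : ℝ) • u))‖ ≤ ρ := h0
          rw [zero_smul, G.ex_zero] at this
          exact this
        rw [indicator_of_mem h0']
        exact le_self_add
      · have h1 : T ∈ wh_S G o ρ x u := by
          by_contra h1
          exact hcase ⟨h0, h1⟩
        have h1' : G.ex x (T • u) ∈ {y | ‖G.lg o y‖ ≤ ρ} := h1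
        rw [indicator_of_mem h1']
        exact le_add_self
    have e1 : tpiW G q₁ 0 T (x, u) ≤ C * ENNReal.ofReal (2 * ρ) := by
      unfold tpiW
      have h1 : ∫⁻ t in Ioo 0 T, q₁ (G.ex x (t • u), G.V t x u) ≤
          ∫⁻ t, (wh_S G o ρ x u).indicator (fun _ => C) t := by
        refine (setLIntegral_le_lintegral _ _).trans (lintegral_mono fun t => ?_)
        by_cases ht : t ∈ wh_S G o ρ x u
        · rw [indicator_of_mem ht]
          exact hb _ _ (by rw [G.norm_V, hu])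
        · rw [indicator_of_notMem ht]
          exact (hz q₁ hs₁ t ht).le
      refine h1.trans ?_
      rw [lintegral_indicator_const hSm]
      gcongr
      exact wh_volume_S G hu
    calc tpiW G q₁ 0 T (x, u) ≤ C * ENNReal.ofReal (2 * ρ) := e1
      _ ≤ C * ENNReal.ofReal (2 * ρ) * ({y | ‖G.lg o y‖ ≤ ρ}.indicator 1 x +
            {y | ‖G.lg o y‖ ≤ ρ}.indicator 1 (G.ex x (T • u))) := le_mul_of_one_le_right' hind
      _ ≤ _ := le_add_self

/-- **Lines principle.** An inequality between line integrals along all geodesics integrates to an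
inequality on the unit tangent bundle. -/
theorem lines_principle (hn : 1 ≤ n) {o : E n} {ρ : ℝ}
    {q₁ q₂ : E n × E n → ℝ≥0∞} (hm₁ : Measurable q₁) (hm₂ : Measurable q₂)
    {C : ℝ} (hb : ∀ x u : E n, ‖u‖ = 1 → q₁ (x, u) ≤ ENNReal.ofReal C)
    (hs₁ : ∀ x u : E n, ρ < ‖G.lg o x‖ → q₁ (x, u) = 0)
    (hs₂ : ∀ x u : E n, ρ < ‖G.lg o x‖ → q₂ (x, u) = 0)
    (hline : ∀ x u : E n, ‖u‖ = 1 →
      ∫⁻ t, q₁ (G.ex x (t • u), G.V t x u) ≤ ∫⁻ t, q₂ (G.ex x (t • u), G.V t x u)) :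
    tpiJ G q₁ ≤ tpiJ G q₂ := by
  by_cases htop : tpiJ G q₂ = ⊤
  · rw [htop]; exact le_top
  have hA0 : MeasurableSet {y : E n | ‖G.lg o y‖ ≤ ρ} :=
    (G.isCompact_gball o ρ).isClosed.measurableSet
  have hv0 : G.vol {y : E n | ‖G.lg o y‖ ≤ ρ} < ⊤ := G.vol_compact_lt_top (G.isCompact_gball o ρ)
  set F0 : E n → ℝ≥0∞ := {y | ‖G.lg o y‖ ≤ ρ}.indicator 1 with hF0'
  have hmF0 : Measurable F0 := measurable_one.indicator hA0
  have hJ0 : tpiJ G (fun z => F0 z.1) =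
      ENNReal.ofReal (sig n * G.vol.real {y : E n | ‖G.lg o y‖ ≤ ρ}) := by
    have hsig : 0 ≤ sig n := measureReal_nonneg
    rw [tpiJ_fst, hF0', lintegral_indicator_one hA0, ENNReal.ofReal_mul hsig,
      tpi_sig, ofReal_measureReal hv0.ne]
  set D : ℝ≥0∞ := ENNReal.ofReal C * ENNReal.ofReal (2 * ρ) with hD
  have hDt : D ≠ ⊤ := ENNReal.mul_ne_top ENNReal.ofReal_ne_top ENNReal.ofReal_ne_top
  -- the first integral is finite as well
  have hint : ∀ T : ℝ, 0 < T → ENNReal.ofReal T * tpiJ G q₁ ≤ ENNReal.ofReal T * tpiJ G q₂ +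
      D * (tpiJ G (fun z => F0 z.1) + tpiJ G (fun z => F0 (G.ex z.1 (T • z.2)))) := by
    intro T hT
    have h1 := tpiJ_mono G (F := fun z => tpiW G q₁ 0 T z)
      (F' := fun z => tpiW G q₂ 0 T z + D * (F0 z.1 + F0 (G.ex z.1 (T • z.2))))
      (fun x u hu => lines_window G hb hs₁ hs₂ hline x u hu)
    have hB : Measurable fun z : E n × E n => F0 z.1 + F0 (G.ex z.1 (T • z.2)) := by
      apply (hmF0.comp measurable_fst).add
      apply hmF0.comp
      exact (G.ex_smooth.continuous.comp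
        (continuous_fst.prodMk (continuous_snd.const_smul T))).measurable
    rw [tpiJ_add G (tpi_measurable_W G hm₂ 0 T), tpiJ_const_mul G hB,
      tpiJ_add G (F := fun z => F0 z.1) (hmF0.comp measurable_fst)] at h1
    have h2 := tpiJ_W G hn hm₁ le_rfl hT.le
    have h3 := tpiJ_W G hn hm₂ le_rfl hT.le
    rw [sub_zero] at h2 h3
    rw [← h2, ← h3]
    exact h1
  set a : ℝ≥0∞ := tpiJ G q₁ with ha
  set b : ℝ≥0∞ := tpiJ G q₂ with hb'
  set c : ℝ≥0∞ := D * (2 * tpiJ G (fun z => F0 z.1)) with hc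
  have hct : c ≠ ⊤ := by
    rw [hc, hJ0]
    exact ENNReal.mul_ne_top hDt (ENNReal.mul_ne_top (by simp) ENNReal.ofReal_ne_top)
  have key : ∀ N > 0, ∃ T > N, ENNReal.ofReal T * a ≤ ENNReal.ofReal T * b + c := by
    intro N hN
    obtain ⟨T, ⟨hT1, hT2⟩, hT3⟩ := tpi_exists_time G hn hmF0 hN
    refine ⟨T, hT1, (hint T (by linarith)).trans ?_⟩
    rw [hc, two_mul]
    gcongr
  have hat : a ≠ ⊤ := by
    intro h
    obtain ⟨T, hT1, hT2⟩ := key 1 one_pos
    rw [h, ENNReal.mul_top (by simp; linarith)] at hT2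
    exact absurd hT2 (not_le.2 (ENNReal.add_lt_top.2
      ⟨ENNReal.mul_lt_top ENNReal.ofReal_lt_top (lt_top_iff_ne_top.2 htop),
        lt_top_iff_ne_top.2 hct⟩))
  have hfin := tpi_real_limit (a := a.toReal) (b := b.toReal) (c := c.toReal) (by
    intro N hN
    obtain ⟨T, hT1, hT2⟩ := key N hN
    refine ⟨T, hT1, ?_⟩
    have hT0 : 0 < T := by linarith
    have h1 := ENNReal.toReal_mono (ENNReal.add_ne_top.2
      ⟨ENNReal.mul_ne_top ENNReal.ofReal_ne_top htop, hct⟩) hT2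
    rw [ENNReal.toReal_add (ENNReal.mul_ne_top ENNReal.ofReal_ne_top htop) hct,
      ENNReal.toReal_mul, ENNReal.toReal_mul, ENNReal.toReal_ofReal hT0.le] at h1
    exact h1)
  exact (ENNReal.toReal_le_toReal hat htop).1 hfin

end Vale.Agent.P219.Dim2
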